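import Mathlib

/-!
# P322 (Courtade-Kumar conjecture): an influence bound valid for every Boolean function

`X` is uniform on `{0,1}^n` (encoded as `Fin n → Bool`), `Y` is the output of `n` independent
binary symmetric channels with crossover probability `e`.  For every Boolean function `f`, every
coordinate `i` and every `e ∈ [0, 1/2]` we prove
`I(f(X);Y) ≤ H(f(X)) - h2(e) * Inf_i(f)`, where `Inf_i(f) = P(f(X) ≠ f(X with bit i flipped))`.
Consequently the Courtade-Kumar inequality `I(f(X);Y) ≤ 1 - h2(e)` holds whenever
`h2(e) * (1 - Inf_i(f)) ≤ 1 - H(f(X))` for some coordinate `i`.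
-/

namespace Vale.Agent.Results.P322.InfluenceBound

open Finset

/-- `chan e x y` is the probability that `n` independent binary symmetric channels with
crossover probability `e` turn the input `x` into the output `y`.  For `X` uniform it is also
the conditional probability `P(X = x | Y = y)`. -/
def chan {n : ℕ} (e : ℝ) (x y : Fin n → Bool) : ℝ :=
  ∏ i, if x i = y i then 1 - e else e

/-- `post f e y` is the conditional probability `P(f(X) = true | Y = y)`. -/
def post {n : ℕ} (f : (Fin n → Bool) → Bool) (e : ℝ) (y : Fin n → Bool) : ℝ :=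
  ∑ x, if f x = true then chan e x y else 0

/-- The binary entropy function in bits. -/
noncomputable def h2 (p : ℝ) : ℝ := Real.binEntropy p / Real.log 2

/-- The mutual information `I(f(X);Y) = H(f(X)) - H(f(X)|Y)` in bits, where
`H(f(X)) = h2(P(f(X) = true))` and `H(f(X)|Y)` is the average over the `2^n` equally likely
outputs `y` of `h2(P(f(X) = true | Y = y))`. -/
noncomputable def mutualInfo {n : ℕ} (f : (Fin n → Bool) → Bool) (e : ℝ) : ℝ :=
  h2 ((∑ x, if f x = true then (1 : ℝ) else 0) / 2 ^ n) - (∑ y, h2 (post f e y)) / 2 ^ n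

lemma chan_insertNth {n : ℕ} (e : ℝ) (i : Fin (n + 1)) (b : Bool) (x : Fin n → Bool)
    (y : Fin (n + 1) → Bool) :
    chan e (i.insertNth b x) y = (if b = y i then 1 - e else e) * chan e x (i.removeNth y) := by
  unfold chan
  rw [Fin.prod_univ_succAbove _ i]
  simp only [Fin.insertNth_apply_same, Fin.insertNth_apply_succAbove, Fin.removeNth]
  rfl

lemma sum_insertNth {n : ℕ} (i : Fin (n + 1)) (F : (Fin (n + 1) → Bool) → ℝ) :
    ∑ x, F x = ∑ b : Bool, ∑ x' : Fin n → Bool, F (i.insertNth b x') := by
  rw [← (Fin.insertNthEquiv (fun _ => Bool) i).sum_comp, Fintype.sum_prod_type]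
  rfl

lemma chan_sum {n : ℕ} (e : ℝ) (y : Fin n → Bool) : ∑ x, chan e x y = 1 := by
  induction n with
  | zero => simp [chan]
  | succ n ih =>
    rw [sum_insertNth 0]
    simp only [chan_insertNth, ← Finset.mul_sum, ih, mul_one, Fintype.sum_bool]
    cases y 0 <;> simp

lemma chan_nonneg {n : ℕ} (e : ℝ) (h0 : 0 ≤ e) (h1 : e ≤ 1) (x y : Fin n → Bool) :
    0 ≤ chan e x y := by
  unfold chan
  apply Finset.prod_nonneg
  intro i _
  split_ifs <;> linarith

lemma post_nonneg {n : ℕ} (f : (Fin n → Bool) → Bool) (e : ℝ) (h0 : 0 ≤ e) (h1 : e ≤ 1)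
    (y : Fin n → Bool) : 0 ≤ post f e y := by
  unfold post
  apply Finset.sum_nonneg
  intro x _
  split_ifs
  · exact chan_nonneg e h0 h1 x y
  · exact le_refl 0

lemma post_add_post_not {n : ℕ} (f : (Fin n → Bool) → Bool) (e : ℝ) (y : Fin n → Bool) :
    post f e y + post (fun x => !f x) e y = 1 := by
  unfold post
  rw [← Finset.sum_add_distrib, ← chan_sum e y]
  apply Finset.sum_congr rfl
  intro x _
  by_cases h : f x = true
  · simp [h]
  · simp [h]

lemma post_le_one {n : ℕ} (f : (Fin n → Bool) → Bool) (e : ℝ) (h0 : 0 ≤ e) (h1 : e ≤ 1)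
    (y : Fin n → Bool) : post f e y ≤ 1 := by
  have h := post_add_post_not f e y
  have h' := post_nonneg (fun x => !f x) e h0 h1 y
  linarith

lemma post_decomp {n : ℕ} (f : (Fin (n + 1) → Bool) → Bool) (e : ℝ) (i : Fin (n + 1))
    (y : Fin (n + 1) → Bool) :
    post f e y = ∑ b : Bool, (if b = y i then 1 - e else e) *
      post (fun x => f (i.insertNth b x)) e (i.removeNth y) := by
  unfold post
  rw [sum_insertNth i]
  apply Finset.sum_congr rfl
  intro b _
  rw [Finset.mul_sum]
  apply Finset.sum_congr rfl
  intro x _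
  rw [chan_insertNth]
  split_ifs <;> simp

/-- Concavity of the binary entropy on `[0,1]`, in two-point form. -/
lemma binEntropy_concave (a b p q : ℝ) (ha : 0 ≤ a) (hb : 0 ≤ b) (hab : a + b = 1)
    (hp0 : 0 ≤ p) (hp1 : p ≤ 1) (hq0 : 0 ≤ q) (hq1 : q ≤ 1) :
    a * Real.binEntropy p + b * Real.binEntropy q ≤ Real.binEntropy (a * p + b * q) := by
  have h := Real.strictConcave_binEntropy.concaveOn.2 (Set.mem_Icc.mpr ⟨hp0, hp1⟩)
    (Set.mem_Icc.mpr ⟨hq0, hq1⟩) ha hb hab
  simpa [smul_eq_mul] using h

/-- The probability `P(f(X) = true)` for `X` uniform on `{0,1}^n`. -/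
noncomputable def probTrue {n : ℕ} (f : (Fin n → Bool) → Bool) : ℝ :=
  (∑ x, if f x = true then (1 : ℝ) else 0) / 2 ^ n

/-- The influence of coordinate `i` on `f`: the probability, for `X` uniform on `{0,1}^n`, that
flipping the `i`-th bit of `X` changes the value of `f`. -/
noncomputable def infl {n : ℕ} (f : (Fin n → Bool) → Bool) (i : Fin n) : ℝ :=
  (∑ x, if f (Function.update x i (!x i)) ≠ f x then (1 : ℝ) else 0) / 2 ^ n

lemma chan_symm {n : ℕ} (e : ℝ) (x y : Fin n → Bool) : chan e x y = chan e y x := by
  unfold chan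
  apply Finset.prod_congr rfl
  intro i _
  by_cases h : x i = y i
  · simp [h]
  · have h' : ¬ y i = x i := fun h'' => h h''.symm
    simp [h, h']

lemma chan_sum' {n : ℕ} (e : ℝ) (x : Fin n → Bool) : ∑ y, chan e x y = 1 := by
  simp_rw [chan_symm e x]
  exact chan_sum e x

/-- Pointwise bound: the entropy of the posterior is at least the noise entropy times the
posterior mass of the inputs at which coordinate `i` is sensitive. -/
lemma entropy_pointwise (n : ℕ) (f : (Fin (n + 1) → Bool) → Bool) (i : Fin (n + 1))
    (e : ℝ) (h0 : 0 ≤ e) (h1 : e ≤ 1) (y : Fin (n + 1) → Bool) :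
    Real.binEntropy e *
      (∑ x' : Fin n → Bool, if f (i.insertNth true x') ≠ f (i.insertNth false x')
        then chan e x' (i.removeNth y) else 0)
    ≤ Real.binEntropy (post f e y) := by
  classical
  -- the posterior as a mixture over `x'`
  set p : (Fin n → Bool) → ℝ := fun x' =>
    (if true = y i then 1 - e else e) * (if f (i.insertNth true x') = true then 1 else 0)
    + (if false = y i then 1 - e else e) * (if f (i.insertNth false x') = true then 1 else 0)
    with hp
  have hpost : post f e y = ∑ x', chan e x' (i.removeNth y) • p x' := by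
    rw [post_decomp f e i y, Fintype.sum_bool]
    unfold post
    simp only [hp, smul_eq_mul, Finset.mul_sum, ← Finset.sum_add_distrib]
    apply Finset.sum_congr rfl
    intro x' _
    cases hy : y i <;>
    by_cases hT : f (i.insertNth true x') = true <;> by_cases hF : f (i.insertNth false x') = true
      <;> simp [hT, hF] <;> ring
  have hmem : ∀ x' ∈ (Finset.univ : Finset (Fin n → Bool)), p x' ∈ Set.Icc (0 : ℝ) 1 := by
    intro x' _
    simp only [hp, Set.mem_Icc]
    cases hy : y i <;>
    by_cases hT : f (i.insertNth true x') = true <;> by_cases hF : f (i.insertNth false x') = true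
      <;> simp [hT, hF] <;> constructor <;> linarith
  have hJ := Real.strictConcave_binEntropy.concaveOn.le_map_sum
    (t := (Finset.univ : Finset (Fin n → Bool)))
    (w := fun x' => chan e x' (i.removeNth y)) (p := p)
    (fun x' _ => chan_nonneg e h0 h1 x' _) (chan_sum e _) hmem
  rw [← hpost] at hJ
  refine le_trans ?_ hJ
  rw [Finset.mul_sum]
  apply le_of_eq
  apply Finset.sum_congr rfl
  intro x' _
  simp only [hp, smul_eq_mul]
  cases hy : y i <;>
  by_cases hT : f (i.insertNth true x') = true <;> by_cases hF : f (i.insertNth false x') = true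
    <;> simp [hT, hF, Real.binEntropy_one_sub] <;> ring

/-- Summed bound: the conditional entropy of `f(X)` given `Y` is at least the noise entropy
times the influence of coordinate `i` (in nats, before normalisation). -/
lemma entropy_sum (n : ℕ) (f : (Fin (n + 1) → Bool) → Bool) (i : Fin (n + 1))
    (e : ℝ) (h0 : 0 ≤ e) (h1 : e ≤ 1) :
    Real.binEntropy e *
      (∑ x, if f (Function.update x i (!x i)) ≠ f x then (1 : ℝ) else 0)
    ≤ ∑ y, Real.binEntropy (post f e y) := by
  classical
  have hcount : (∑ x, if f (Function.update x i (!x i)) ≠ f x then (1 : ℝ) else 0)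
      = 2 * ∑ x' : Fin n → Bool,
          if f (i.insertNth true x') ≠ f (i.insertNth false x') then (1 : ℝ) else 0 := by
    rw [sum_insertNth i, Fintype.sum_bool]
    simp only [Fin.insertNth_apply_same, Fin.update_insertNth, Bool.not_true, Bool.not_false]
    rw [two_mul]
    congr 1
    apply Finset.sum_congr rfl
    intro x' _
    by_cases h : f (i.insertNth true x') = f (i.insertNth false x')
    · simp [h]
    · have h' : ¬ f (i.insertNth false x') = f (i.insertNth true x') := fun h'' => h h''.symm
      simp [h, h']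
  have hsum : ∑ y : Fin (n + 1) → Bool, Real.binEntropy e *
      (∑ x' : Fin n → Bool, if f (i.insertNth true x') ≠ f (i.insertNth false x')
        then chan e x' (i.removeNth y) else 0)
      = Real.binEntropy e * (2 * ∑ x' : Fin n → Bool,
          if f (i.insertNth true x') ≠ f (i.insertNth false x') then (1 : ℝ) else 0) := by
    rw [← Finset.mul_sum, sum_insertNth i, Fintype.sum_bool]
    simp only [Fin.removeNth_insertNth]
    rw [← two_mul, Finset.sum_comm]
    congr 2
    apply Finset.sum_congr rfl
    intro x' _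
    by_cases h : f (i.insertNth true x') = f (i.insertNth false x')
    · simp [h]
    · simp [h, chan_sum']
  rw [hcount, ← hsum]
  exact Finset.sum_le_sum (fun y _ => entropy_pointwise n f i e h0 h1 y)

/-- **Influence bound for the Courtade-Kumar problem.**  For every `n`, every Boolean function
`f` on `{0,1}^n`, every coordinate `i` and every crossover probability `e ∈ [0, 1/2]`:
`I(f(X);Y) ≤ H(f(X)) - h2(e) * Inf_i(f)`; hence the Courtade-Kumar inequality
`I(f(X);Y) ≤ 1 - h2(e)` holds whenever `h2(e) * (1 - Inf_i(f)) ≤ 1 - H(f(X))`. -/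
theorem result : ∀ (n : ℕ) (f : (Fin n → Bool) → Bool) (i : Fin n) (e : ℝ), 0 ≤ e → e ≤ 1 / 2 →
    mutualInfo f e ≤ h2 (probTrue f) - h2 e * infl f i ∧
    (h2 e * (1 - infl f i) ≤ 1 - h2 (probTrue f) → mutualInfo f e ≤ 1 - h2 e) := by
  intro n f i e h0 h1
  have hlog : 0 < Real.log 2 := Real.log_pos (by norm_num)
  have key : mutualInfo f e ≤ h2 (probTrue f) - h2 e * infl f i := by
    cases n with
    | zero => exact i.elim0
    | succ m =>
      have hb := entropy_sum m f i e h0 (by linarith)
      unfold mutualInfo h2 infl probTrue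
      have hpow : (0 : ℝ) < 2 ^ (m + 1) := by positivity
      have hC : Real.binEntropy e / Real.log 2 *
          ((∑ x, if f (Function.update x i (!x i)) ≠ f x then (1 : ℝ) else 0) / 2 ^ (m + 1))
          ≤ (∑ y, Real.binEntropy (post f e y) / Real.log 2) / 2 ^ (m + 1) := by
        rw [← Finset.sum_div, div_div, le_div_iff₀ (by positivity)]
        have : Real.binEntropy e / Real.log 2 *
            ((∑ x, if f (Function.update x i (!x i)) ≠ f x then (1 : ℝ) else 0) / 2 ^ (m + 1))
            * (Real.log 2 * 2 ^ (m + 1))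
            = Real.binEntropy e *
              (∑ x, if f (Function.update x i (!x i)) ≠ f x then (1 : ℝ) else 0) := by
          field_simp
        rw [this]
        exact hb
      linarith
  refine ⟨key, fun h => ?_⟩
  linarith

end Vale.Agent.Results.P322.InfluenceBound
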