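import Mathlib

/-!
# P322 (Courtade-Kumar conjecture): decision trees with literal leaves

`X` is uniform on `{0,1}^n` (encoded as `Fin n → Bool`), `Y` is the output of `n` independent
binary symmetric channels with crossover probability `e`.  We prove the Courtade-Kumar inequality
`I(f(X);Y) ≤ 1 - h2(e)` for every `e ∈ [0, 1/2]` and every Boolean function `f` computed by a
decision tree all of whose leaves are labelled by a literal of a variable not queried on the
path (class `LitLeaf`): for instance `f = x_i XOR g(other variables)` and the address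
(multiplexer) functions.
-/

namespace Vale.Agent.Results.P322.LiteralLeafTrees

open Finset

/-- `chan e x y` is the probability that `n` independent binary symmetric channels with
crossover probability `e` turn the input `x` into the output `y`.  For `X` uniform it is also
the conditional probability `P(X = x | Y = y)`. -/
def chan {n : ℕ} (e : ℝ) (x y : Fin n → Bool) : ℝ :=
  ∏ i, if x i = y i then 1 - e else e

/-- `post f e y` is the conditional probability `P(f(X) = true | Y = y)`. -/
def post {n : ℕ} (f : (Fin n → Bool) → Bool) (e : ℝ) (y : Fin n → Bool) : ℝ :=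
  ∑ x, if f x = true then chan e x y else 0

/-- The binary entropy function in bits. -/
noncomputable def h2 (p : ℝ) : ℝ := Real.binEntropy p / Real.log 2

/-- The mutual information `I(f(X);Y) = H(f(X)) - H(f(X)|Y)` in bits, where
`H(f(X)) = h2(P(f(X) = true))` and `H(f(X)|Y)` is the average over the `2^n` equally likely
outputs `y` of `h2(P(f(X) = true | Y = y))`. -/
noncomputable def mutualInfo {n : ℕ} (f : (Fin n → Bool) → Bool) (e : ℝ) : ℝ :=
  h2 ((∑ x, if f x = true then (1 : ℝ) else 0) / 2 ^ n) - (∑ y, h2 (post f e y)) / 2 ^ n

/-- Boolean functions computed by a decision tree whose leaves are literals of fresh variables.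
`odd`: flipping some coordinate `i` always flips the value of `f` (that is, `f` is `x_i` XOR a
function of the other coordinates).  `branch`: for some coordinate `i` both restrictions
`x_i = false` and `x_i = true` of `f` (functions of the remaining `n` coordinates) are again of
this kind. -/
inductive LitLeaf : (n : ℕ) → ((Fin n → Bool) → Bool) → Prop
  | odd {n : ℕ} (f : (Fin n → Bool) → Bool) (i : Fin n)
      (h : ∀ x, f (Function.update x i (!x i)) = !f x) : LitLeaf n f
  | branch {n : ℕ} (f : (Fin (n + 1) → Bool) → Bool) (i : Fin (n + 1))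
      (hF : LitLeaf n (fun x => f (i.insertNth false x)))
      (hT : LitLeaf n (fun x => f (i.insertNth true x))) : LitLeaf (n + 1) f

lemma chan_insertNth {n : ℕ} (e : ℝ) (i : Fin (n + 1)) (b : Bool) (x : Fin n → Bool)
    (y : Fin (n + 1) → Bool) :
    chan e (i.insertNth b x) y = (if b = y i then 1 - e else e) * chan e x (i.removeNth y) := by
  unfold chan
  rw [Fin.prod_univ_succAbove _ i]
  simp only [Fin.insertNth_apply_same, Fin.insertNth_apply_succAbove, Fin.removeNth]
  rfl

lemma sum_insertNth {n : ℕ} (i : Fin (n + 1)) (F : (Fin (n + 1) → Bool) → ℝ) :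
    ∑ x, F x = ∑ b : Bool, ∑ x' : Fin n → Bool, F (i.insertNth b x') := by
  rw [← (Fin.insertNthEquiv (fun _ => Bool) i).sum_comp, Fintype.sum_prod_type]
  rfl

lemma chan_sum {n : ℕ} (e : ℝ) (y : Fin n → Bool) : ∑ x, chan e x y = 1 := by
  induction n with
  | zero => simp [chan]
  | succ n ih =>
    rw [sum_insertNth 0]
    simp only [chan_insertNth, ← Finset.mul_sum, ih, mul_one, Fintype.sum_bool]
    cases y 0 <;> simp

lemma chan_nonneg {n : ℕ} (e : ℝ) (h0 : 0 ≤ e) (h1 : e ≤ 1) (x y : Fin n → Bool) :
    0 ≤ chan e x y := by
  unfold chan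
  apply Finset.prod_nonneg
  intro i _
  split_ifs <;> linarith

lemma post_nonneg {n : ℕ} (f : (Fin n → Bool) → Bool) (e : ℝ) (h0 : 0 ≤ e) (h1 : e ≤ 1)
    (y : Fin n → Bool) : 0 ≤ post f e y := by
  unfold post
  apply Finset.sum_nonneg
  intro x _
  split_ifs
  · exact chan_nonneg e h0 h1 x y
  · exact le_refl 0

lemma post_add_post_not {n : ℕ} (f : (Fin n → Bool) → Bool) (e : ℝ) (y : Fin n → Bool) :
    post f e y + post (fun x => !f x) e y = 1 := by
  unfold post
  rw [← Finset.sum_add_distrib, ← chan_sum e y]
  apply Finset.sum_congr rfl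
  intro x _
  by_cases h : f x = true
  · simp [h]
  · simp [h]

lemma post_le_one {n : ℕ} (f : (Fin n → Bool) → Bool) (e : ℝ) (h0 : 0 ≤ e) (h1 : e ≤ 1)
    (y : Fin n → Bool) : post f e y ≤ 1 := by
  have h := post_add_post_not f e y
  have h' := post_nonneg (fun x => !f x) e h0 h1 y
  linarith

lemma post_decomp {n : ℕ} (f : (Fin (n + 1) → Bool) → Bool) (e : ℝ) (i : Fin (n + 1))
    (y : Fin (n + 1) → Bool) :
    post f e y = ∑ b : Bool, (if b = y i then 1 - e else e) *
      post (fun x => f (i.insertNth b x)) e (i.removeNth y) := by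
  unfold post
  rw [sum_insertNth i]
  apply Finset.sum_congr rfl
  intro b _
  rw [Finset.mul_sum]
  apply Finset.sum_congr rfl
  intro x _
  rw [chan_insertNth]
  split_ifs <;> simp

/-- Concavity of the binary entropy on `[0,1]`, in two-point form. -/
lemma binEntropy_concave (a b p q : ℝ) (ha : 0 ≤ a) (hb : 0 ≤ b) (hab : a + b = 1)
    (hp0 : 0 ≤ p) (hp1 : p ≤ 1) (hq0 : 0 ≤ q) (hq1 : q ≤ 1) :
    a * Real.binEntropy p + b * Real.binEntropy q ≤ Real.binEntropy (a * p + b * q) := by
  have h := Real.strictConcave_binEntropy.concaveOn.2 (Set.mem_Icc.mpr ⟨hp0, hp1⟩)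
    (Set.mem_Icc.mpr ⟨hq0, hq1⟩) ha hb hab
  simpa [smul_eq_mul] using h

/-- Odd case: if flipping coordinate `i` always flips `f`, every posterior is a mixture of `e`
and `1 - e`, so its entropy is at least that of `e`. -/
lemma entropy_bound_odd (n : ℕ) (f : (Fin (n + 1) → Bool) → Bool) (i : Fin (n + 1))
    (hodd : ∀ x, f (Function.update x i (!x i)) = !f x) (e : ℝ) (h0 : 0 ≤ e) (h1 : e ≤ 1) :
    (2 : ℝ) ^ (n + 1) * Real.binEntropy e ≤ ∑ y, Real.binEntropy (post f e y) := by
  have hpt : ∀ y : Fin (n + 1) → Bool, Real.binEntropy e ≤ Real.binEntropy (post f e y) := by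
    intro y
    have hneg : (fun x : Fin n → Bool => f (i.insertNth true x))
        = fun x => !f (i.insertNth false x) := by
      funext x
      have := hodd (i.insertNth false x)
      rw [Fin.insertNth_apply_same, Fin.update_insertNth] at this
      simpa using this
    set G := post (fun x => f (i.insertNth false x)) e (i.removeNth y) with hG
    have hG0 : 0 ≤ G := post_nonneg _ e h0 h1 _
    have hG1 : G ≤ 1 := post_le_one _ e h0 h1 _
    have hGT : post (fun x => f (i.insertNth true x)) e (i.removeNth y) = 1 - G := by
      rw [hneg]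
      have := post_add_post_not (fun x => f (i.insertNth false x)) e (i.removeNth y)
      linarith
    rw [post_decomp f e i y, Fintype.sum_bool, hGT, ← hG]
    cases hy : y i
    · -- y i = false
      have := binEntropy_concave G (1 - G) (1 - e) e hG0 (by linarith) (by ring)
        (by linarith) (by linarith) h0 h1
      rw [Real.binEntropy_one_sub] at this
      have e1 : G * Real.binEntropy e + (1 - G) * Real.binEntropy e = Real.binEntropy e := by
        ring
      rw [e1] at this
      have e2 : (if true = false then 1 - e else e) * (1 - G)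
          + (if false = false then 1 - e else e) * G = G * (1 - e) + (1 - G) * e := by
        simp; ring
      rw [e2]; exact this
    · -- y i = true
      have := binEntropy_concave G (1 - G) e (1 - e) hG0 (by linarith) (by ring)
        h0 h1 (by linarith) (by linarith)
      rw [Real.binEntropy_one_sub] at this
      have e1 : G * Real.binEntropy e + (1 - G) * Real.binEntropy e = Real.binEntropy e := by
        ring
      rw [e1] at this
      have e2 : (if true = true then 1 - e else e) * (1 - G)
          + (if false = true then 1 - e else e) * G = G * e + (1 - G) * (1 - e) := by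
        simp; ring
      rw [e2]; exact this
  calc (2 : ℝ) ^ (n + 1) * Real.binEntropy e
      = ∑ _y : Fin (n + 1) → Bool, Real.binEntropy e := by
        simp [Finset.sum_const, Finset.card_univ]
    _ ≤ ∑ y, Real.binEntropy (post f e y) := Finset.sum_le_sum (fun y _ => hpt y)

/-- Branch case: the bound for both restrictions at coordinate `i` gives the bound for `f`. -/
lemma entropy_bound_branch (n : ℕ) (f : (Fin (n + 1) → Bool) → Bool) (i : Fin (n + 1))
    (e : ℝ) (h0 : 0 ≤ e) (h1 : e ≤ 1)
    (ihF : (2 : ℝ) ^ n * Real.binEntropy e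
      ≤ ∑ y, Real.binEntropy (post (fun x => f (i.insertNth false x)) e y))
    (ihT : (2 : ℝ) ^ n * Real.binEntropy e
      ≤ ∑ y, Real.binEntropy (post (fun x => f (i.insertNth true x)) e y)) :
    (2 : ℝ) ^ (n + 1) * Real.binEntropy e ≤ ∑ y, Real.binEntropy (post f e y) := by
  set fF : (Fin n → Bool) → Bool := fun x => f (i.insertNth false x) with hfF
  set fT : (Fin n → Bool) → Bool := fun x => f (i.insertNth true x) with hfT
  have hpt : ∀ y : Fin (n + 1) → Bool,
      (if true = y i then 1 - e else e) * Real.binEntropy (post fT e (i.removeNth y))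
      + (if false = y i then 1 - e else e) * Real.binEntropy (post fF e (i.removeNth y))
      ≤ Real.binEntropy (post f e y) := by
    intro y
    rw [post_decomp f e i y, Fintype.sum_bool]
    have hT0 := post_nonneg fT e h0 h1 (i.removeNth y)
    have hT1 := post_le_one fT e h0 h1 (i.removeNth y)
    have hF0 := post_nonneg fF e h0 h1 (i.removeNth y)
    have hF1 := post_le_one fF e h0 h1 (i.removeNth y)
    cases hy : y i
    · have := binEntropy_concave e (1 - e) (post fT e (i.removeNth y))
        (post fF e (i.removeNth y)) h0 (by linarith) (by ring) hT0 hT1 hF0 hF1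
      simpa using this
    · have := binEntropy_concave (1 - e) e (post fT e (i.removeNth y))
        (post fF e (i.removeNth y)) (by linarith) h0 (by ring) hT0 hT1 hF0 hF1
      simpa using this
  have hsum : ∑ y : Fin (n + 1) → Bool,
      ((if true = y i then 1 - e else e) * Real.binEntropy (post fT e (i.removeNth y))
      + (if false = y i then 1 - e else e) * Real.binEntropy (post fF e (i.removeNth y)))
      = ∑ y', Real.binEntropy (post fT e y') + ∑ y', Real.binEntropy (post fF e y') := by
    rw [sum_insertNth i, Fintype.sum_bool]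
    simp only [Fin.insertNth_apply_same, Fin.removeNth_insertNth]
    simp only [Finset.sum_add_distrib, ← Finset.mul_sum]
    simp
    ring
  calc (2 : ℝ) ^ (n + 1) * Real.binEntropy e
      = (2 : ℝ) ^ n * Real.binEntropy e + (2 : ℝ) ^ n * Real.binEntropy e := by ring
    _ ≤ ∑ y', Real.binEntropy (post fT e y') + ∑ y', Real.binEntropy (post fF e y') :=
        add_le_add ihT ihF
    _ = _ := hsum.symm
    _ ≤ ∑ y, Real.binEntropy (post f e y) := Finset.sum_le_sum (fun y _ => hpt y)

/-- Key bound: for `f` in the class `LitLeaf`, the conditional entropy of `f(X)` given `Y` is at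
least the entropy of the channel noise (in nats, summed over all outputs `y`). -/
lemma entropy_bound (n : ℕ) (f : (Fin n → Bool) → Bool) (hf : LitLeaf n f)
    (e : ℝ) (h0 : 0 ≤ e) (h1 : e ≤ 1) :
    (2 : ℝ) ^ n * Real.binEntropy e ≤ ∑ y, Real.binEntropy (post f e y) := by
  induction hf with
  | @odd n f i h =>
    cases n with
    | zero => exact i.elim0
    | succ m => exact entropy_bound_odd m f i h e h0 h1
  | @branch n f i _ _ ihF ihT => exact entropy_bound_branch n f i e h0 h1 ihF ihT

/-- **The Courtade-Kumar inequality for decision trees with literal leaves.**  For every `n`,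
every Boolean function `f` on `{0,1}^n` in the class `LitLeaf` and every crossover probability
`e ∈ [0, 1/2]`, `I(f(X);Y) ≤ 1 - h2(e)`. -/
theorem result : ∀ (n : ℕ) (f : (Fin n → Bool) → Bool), LitLeaf n f →
    ∀ e : ℝ, 0 ≤ e → e ≤ 1 / 2 → mutualInfo f e ≤ 1 - h2 e := by
  intro n f hf e h0 h1
  have hlog : 0 < Real.log 2 := Real.log_pos (by norm_num)
  have hb := entropy_bound n f hf e h0 (by linarith)
  unfold mutualInfo h2
  have hH : Real.binEntropy ((∑ x, if f x = true then (1 : ℝ) else 0) / 2 ^ n) / Real.log 2 ≤ 1 := by
    rw [div_le_one hlog]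
    exact Real.binEntropy_le_log_two
  have hpow : (0 : ℝ) < 2 ^ n := by positivity
  have hC : Real.binEntropy e / Real.log 2
      ≤ (∑ y, Real.binEntropy (post f e y) / Real.log 2) / 2 ^ n := by
    rw [← Finset.sum_div, div_div, le_div_iff₀ (by positivity)]
    have : Real.binEntropy e / Real.log 2 * (Real.log 2 * 2 ^ n)
        = 2 ^ n * Real.binEntropy e := by
      field_simp
    rw [this]
    exact hb
  linarith

end Vale.Agent.Results.P322.LiteralLeafTrees
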