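import Mathlib

/-!
# P322 (Courtade-Kumar conjecture): the matching bound

`X` is uniform on `{0,1}^n` (encoded as `Fin n → Bool`), `Y` is the output of `n` independent
binary symmetric channels with crossover probability `e`.  A *sensitive edge* of a Boolean
function `f` is a pair of inputs differing in exactly one coordinate on which `f` takes different
values.  For every matching of sensitive edges (encoded as an involution `σ` of the cube that
moves a point only to a neighbour with the other value of `f`) and every `e ∈ [0, 1/2]` we prove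
`I(f(X);Y) ≤ H(f(X)) - h2(e) * (fraction of the cube covered by the matching)`.
In particular the Courtade-Kumar inequality `I(f(X);Y) ≤ 1 - h2(e)` holds for every `f` whose
sensitive edges contain a perfect matching of the cube.
-/

namespace Vale.Agent.Results.P322.MatchingBound

open Finset

/-- `chan e x y` is the probability that `n` independent binary symmetric channels with
crossover probability `e` turn the input `x` into the output `y`.  For `X` uniform it is also
the conditional probability `P(X = x | Y = y)`. -/
def chan {n : ℕ} (e : ℝ) (x y : Fin n → Bool) : ℝ :=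
  ∏ i, if x i = y i then 1 - e else e

/-- `post f e y` is the conditional probability `P(f(X) = true | Y = y)`. -/
def post {n : ℕ} (f : (Fin n → Bool) → Bool) (e : ℝ) (y : Fin n → Bool) : ℝ :=
  ∑ x, if f x = true then chan e x y else 0

/-- The binary entropy function in bits. -/
noncomputable def h2 (p : ℝ) : ℝ := Real.binEntropy p / Real.log 2

/-- The probability `P(f(X) = true)` for `X` uniform on `{0,1}^n`. -/
noncomputable def probTrue {n : ℕ} (f : (Fin n → Bool) → Bool) : ℝ :=
  (∑ x, if f x = true then (1 : ℝ) else 0) / 2 ^ n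

/-- The mutual information `I(f(X);Y) = H(f(X)) - H(f(X)|Y)` in bits, where
`H(f(X)) = h2(P(f(X) = true))` and `H(f(X)|Y)` is the average over the `2^n` equally likely
outputs `y` of `h2(P(f(X) = true | Y = y))`. -/
noncomputable def mutualInfo {n : ℕ} (f : (Fin n → Bool) → Bool) (e : ℝ) : ℝ :=
  h2 (probTrue f) - (∑ y, h2 (post f e y)) / 2 ^ n

/-- `σ` is a matching of sensitive edges of `f`: `σ` is an involution of the cube, and every
point `x` moved by `σ` is moved to a neighbour (exactly one coordinate flipped) at which `f`
takes the other value.  The matched pairs are the pairs `{x, σ x}` with `σ x ≠ x`. -/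
def SensMatching {n : ℕ} (f : (Fin n → Bool) → Bool) (σ : (Fin n → Bool) → (Fin n → Bool)) :
    Prop :=
  (∀ x, σ (σ x) = x) ∧
    ∀ x, σ x ≠ x → (∃ i, σ x = Function.update x i (!x i)) ∧ f (σ x) ≠ f x

/-- The fraction of the `2^n` points of the cube that are covered by the matching `σ`
(the points moved by `σ`). -/
noncomputable def covered {n : ℕ} (σ : (Fin n → Bool) → (Fin n → Bool)) : ℝ :=
  (∑ x, if σ x ≠ x then (1 : ℝ) else 0) / 2 ^ n

lemma chan_insertNth {n : ℕ} (e : ℝ) (i : Fin (n + 1)) (b : Bool) (x : Fin n → Bool)
    (y : Fin (n + 1) → Bool) :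
    chan e (i.insertNth b x) y = (if b = y i then 1 - e else e) * chan e x (i.removeNth y) := by
  unfold chan
  rw [Fin.prod_univ_succAbove _ i]
  simp only [Fin.insertNth_apply_same, Fin.insertNth_apply_succAbove, Fin.removeNth]
  rfl

lemma sum_insertNth {n : ℕ} (i : Fin (n + 1)) (F : (Fin (n + 1) → Bool) → ℝ) :
    ∑ x, F x = ∑ b : Bool, ∑ x' : Fin n → Bool, F (i.insertNth b x') := by
  rw [← (Fin.insertNthEquiv (fun _ => Bool) i).sum_comp, Fintype.sum_prod_type]
  rfl

lemma chan_sum {n : ℕ} (e : ℝ) (y : Fin n → Bool) : ∑ x, chan e x y = 1 := by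
  induction n with
  | zero => simp [chan]
  | succ n ih =>
    rw [sum_insertNth 0]
    simp only [chan_insertNth, ← Finset.mul_sum, ih, mul_one, Fintype.sum_bool]
    cases y 0 <;> simp

lemma chan_nonneg {n : ℕ} (e : ℝ) (h0 : 0 ≤ e) (h1 : e ≤ 1) (x y : Fin n → Bool) :
    0 ≤ chan e x y := by
  unfold chan
  apply Finset.prod_nonneg
  intro i _
  split_ifs <;> linarith

lemma chan_symm {n : ℕ} (e : ℝ) (x y : Fin n → Bool) : chan e x y = chan e y x := by
  unfold chan
  apply Finset.prod_congr rfl
  intro i _
  by_cases h : x i = y i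
  · simp [h]
  · have h' : ¬ y i = x i := fun h'' => h h''.symm
    simp [h, h']

lemma chan_sum' {n : ℕ} (e : ℝ) (x : Fin n → Bool) : ∑ y, chan e x y = 1 := by
  simp_rw [chan_symm e x]
  exact chan_sum e x

/-- Splitting off the factor of coordinate `i`. -/
lemma chan_split {n : ℕ} (e : ℝ) (x y : Fin n → Bool) (i : Fin n) :
    chan e x y = (if x i = y i then 1 - e else e) *
      ∏ j ∈ univ.erase i, (if x j = y j then 1 - e else e) := by
  unfold chan
  rw [Finset.mul_prod_erase univ (fun j => if x j = y j then 1 - e else e) (mem_univ i)]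

/-- Flipping coordinate `i` of the input exchanges the two possible factors of coordinate `i`
and leaves the other factors unchanged. -/
lemma chan_flip {n : ℕ} (e : ℝ) (x y : Fin n → Bool) (i : Fin n) :
    chan e (Function.update x i (!x i)) y = (if x i = y i then e else 1 - e) *
      ∏ j ∈ univ.erase i, (if x j = y j then 1 - e else e) := by
  rw [chan_split e _ y i]
  congr 1
  · simp only [Function.update_self]
    cases x i <;> cases y i <;> simp
  · apply Finset.prod_congr rfl
    intro j hj
    rw [Function.update_of_ne (Finset.ne_of_mem_erase hj)]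

/-- Pointwise bound: the entropy of the posterior of `f(X)` given `Y = y` is at least the noise
entropy times the posterior mass of the points covered by the matching. -/
lemma entropy_pointwise {n : ℕ} (f : (Fin n → Bool) → Bool)
    (σ : (Fin n → Bool) → (Fin n → Bool)) (hσ : SensMatching f σ) (e : ℝ) (h0 : 0 ≤ e)
    (h1 : e ≤ 1) (y : Fin n → Bool) :
    ∑ x, (if σ x ≠ x then chan e x y else 0) * Real.binEntropy e
      ≤ Real.binEntropy (post f e y) := by
  classical
  obtain ⟨hinv, hadj⟩ := hσ
  set c : (Fin n → Bool) → ℝ := fun x => chan e x y with hc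
  set ind : (Fin n → Bool) → ℝ := fun x => if f x = true then 1 else 0 with hind
  have hc0 : ∀ x, 0 ≤ c x := fun x => chan_nonneg e h0 h1 x y
  have hind0 : ∀ x, 0 ≤ ind x := fun x => by simp only [hind]; split_ifs <;> norm_num
  have hind1 : ∀ x, ind x ≤ 1 := fun x => by simp only [hind]; split_ifs <;> norm_num
  set p : (Fin n → Bool) → ℝ := fun x =>
    if σ x = x then ind x else (ind x * c x + ind (σ x) * c (σ x)) / (c x + c (σ x)) with hp
  have hpσ : ∀ x, p (σ x) = p x := by
    intro x
    by_cases hx : σ x = x
    · rw [hx]
    · have hx' : σ (σ x) ≠ σ x := by rw [hinv x]; exact fun h => hx h.symm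
      simp only [hp, if_neg hx, if_neg hx', hinv x]
      rw [add_comm (ind (σ x) * c (σ x)), add_comm (c (σ x))]
  have hmem : ∀ x ∈ (Finset.univ : Finset (Fin n → Bool)), p x ∈ Set.Icc (0 : ℝ) 1 := by
    intro x _
    simp only [hp]
    split_ifs with hx
    · exact ⟨hind0 x, hind1 x⟩
    · have hN0 : 0 ≤ ind x * c x + ind (σ x) * c (σ x) :=
        add_nonneg (mul_nonneg (hind0 x) (hc0 x)) (mul_nonneg (hind0 (σ x)) (hc0 (σ x)))
      have hD0 : 0 ≤ c x + c (σ x) := add_nonneg (hc0 x) (hc0 (σ x))
      have hND : ind x * c x + ind (σ x) * c (σ x) ≤ c x + c (σ x) := by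
        have e1 := mul_le_of_le_one_left (hc0 x) (hind1 x)
        have e2 := mul_le_of_le_one_left (hc0 (σ x)) (hind1 (σ x))
        linarith
      exact ⟨div_nonneg hN0 hD0, div_le_one_of_le₀ hND hD0⟩
  have hpair : ∀ x, c x * p x + c (σ x) * p (σ x) = ind x * c x + ind (σ x) * c (σ x) := by
    intro x
    rw [hpσ x, ← add_mul]
    by_cases hx : σ x = x
    · simp only [hp, if_pos hx, hx]; ring
    · simp only [hp, if_neg hx]
      by_cases hD : c x + c (σ x) = 0
      · have hcx : c x = 0 := by have e1 := hc0 x; have e2 := hc0 (σ x); linarith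
        have hcs : c (σ x) = 0 := by have e1 := hc0 x; have e2 := hc0 (σ x); linarith
        rw [hcx, hcs]; simp
      · rw [mul_div_cancel₀ _ hD]
  have hmix : post f e y = ∑ x, c x • p x := by
    have hre : ∑ x, c (σ x) * p (σ x) = ∑ x, c x * p x :=
      Equiv.sum_comp (Function.Involutive.toPerm σ hinv) (fun x => c x * p x)
    have hre2 : ∑ x, ind (σ x) * c (σ x) = ∑ x, ind x * c x :=
      Equiv.sum_comp (Function.Involutive.toPerm σ hinv) (fun x => ind x * c x)
    have hsum : ∑ x, (c x * p x + c (σ x) * p (σ x))
        = ∑ x, (ind x * c x + ind (σ x) * c (σ x)) :=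
      Finset.sum_congr rfl (fun x _ => hpair x)
    rw [Finset.sum_add_distrib, Finset.sum_add_distrib, hre, hre2] at hsum
    have hpost : post f e y = ∑ x, ind x * c x := by
      unfold post
      apply Finset.sum_congr rfl
      intro x _
      simp only [hind, hc]
      split_ifs <;> simp
    simp only [smul_eq_mul]
    rw [hpost]; linarith
  have hJ := Real.strictConcave_binEntropy.concaveOn.le_map_sum
    (t := (Finset.univ : Finset (Fin n → Bool))) (w := c) (p := p)
    (fun x _ => hc0 x) (chan_sum e y) hmem
  rw [← hmix] at hJ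
  refine le_trans ?_ hJ
  apply Finset.sum_le_sum
  intro x _
  simp only [smul_eq_mul]
  by_cases hx : σ x = x
  · have hz : (if σ x ≠ x then chan e x y else 0) = 0 := by simp [hx]
    rw [hz, zero_mul]
    exact mul_nonneg (hc0 x)
      (Real.binEntropy_nonneg (hmem x (mem_univ x)).1 (hmem x (mem_univ x)).2)
  · rw [if_pos hx]
    obtain ⟨⟨i, hi⟩, hf⟩ := hadj x hx
    have hcx : c x = (if x i = y i then 1 - e else e) *
        ∏ j ∈ univ.erase i, (if x j = y j then 1 - e else e) := chan_split e x y i
    have hcs : c (σ x) = (if x i = y i then e else 1 - e) *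
        ∏ j ∈ univ.erase i, (if x j = y j then 1 - e else e) := by
      simp only [hc]; rw [hi]; exact chan_flip e x y i
    set A : ℝ := ∏ j ∈ univ.erase i, (if x j = y j then 1 - e else e) with hA
    by_cases hA0 : A = 0
    · have hcx0 : c x = 0 := by rw [hcx, hA0, mul_zero]
      show c x * Real.binEntropy e ≤ c x * Real.binEntropy (p x)
      rw [hcx0, zero_mul, zero_mul]
    · show c x * Real.binEntropy e ≤ c x * Real.binEntropy (p x)
      apply le_of_eq
      congr 1
      have hpx : p x = (ind x * c x + ind (σ x) * c (σ x)) / (c x + c (σ x)) := by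
        simp only [hp, if_neg hx]
      have hfs : f (σ x) = !f x := by
        revert hf
        cases f (σ x) <;> cases f x <;> simp
      have e1 : ind (σ x) = 1 - ind x := by
        simp only [hind, hfs]
        cases f x <;> simp
      rw [hpx, e1, hcx, hcs]
      by_cases hxy : x i = y i
      · simp only [if_pos hxy]
        have hD : (1 - e) * A + e * A = A := by ring
        rw [hD]
        by_cases hfx : f x = true
        · have hi1 : ind x = 1 := by simp [hind, hfx]
          rw [hi1]
          have hval : (1 * ((1 - e) * A) + (1 - 1) * (e * A)) / A = 1 - e := by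
            field_simp; ring
          rw [hval, Real.binEntropy_one_sub]
        · have hi0 : ind x = 0 := by simp [hind, hfx]
          rw [hi0]
          have hval : (0 * ((1 - e) * A) + (1 - 0) * (e * A)) / A = e := by
            field_simp; ring
          rw [hval]
      · simp only [if_neg hxy]
        have hD : e * A + (1 - e) * A = A := by ring
        rw [hD]
        by_cases hfx : f x = true
        · have hi1 : ind x = 1 := by simp [hind, hfx]
          rw [hi1]
          have hval : (1 * (e * A) + (1 - 1) * ((1 - e) * A)) / A = e := by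
            field_simp; ring
          rw [hval]
        · have hi0 : ind x = 0 := by simp [hind, hfx]
          rw [hi0]
          have hval : (0 * (e * A) + (1 - 0) * ((1 - e) * A)) / A = 1 - e := by
            field_simp; ring
          rw [hval, Real.binEntropy_one_sub]

/-- Summed bound: the conditional entropy of `f(X)` given `Y` is at least the noise entropy
times the number of points covered by the matching (in nats, before normalisation). -/
lemma entropy_sum {n : ℕ} (f : (Fin n → Bool) → Bool)
    (σ : (Fin n → Bool) → (Fin n → Bool)) (hσ : SensMatching f σ) (e : ℝ) (h0 : 0 ≤ e)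
    (h1 : e ≤ 1) :
    Real.binEntropy e * (∑ x, if σ x ≠ x then (1 : ℝ) else 0)
      ≤ ∑ y, Real.binEntropy (post f e y) := by
  have h : ∑ y, ∑ x, (if σ x ≠ x then chan e x y else 0) * Real.binEntropy e
      = Real.binEntropy e * (∑ x, if σ x ≠ x then (1 : ℝ) else 0) := by
    rw [Finset.sum_comm, Finset.mul_sum]
    apply Finset.sum_congr rfl
    intro x _
    by_cases hx : σ x = x
    · simp [hx]
    · simp only [ne_eq, hx, not_false_eq_true, if_true]
      rw [← Finset.sum_mul, chan_sum' e x]; ring
  rw [← h]
  exact Finset.sum_le_sum (fun y _ => entropy_pointwise f σ hσ e h0 h1 y)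

/-- **Matching bound for the Courtade-Kumar problem.**  For every `n`, every Boolean function
`f` on `{0,1}^n`, every matching `σ` of sensitive edges of `f` and every crossover probability
`e ∈ [0, 1/2]`: `I(f(X);Y) ≤ H(f(X)) - h2(e) * (fraction of the cube covered by σ)`.  Hence, if
the sensitive edges of `f` contain a perfect matching of the cube (`σ` has no fixed point), the
Courtade-Kumar inequality `I(f(X);Y) ≤ 1 - h2(e)` holds. -/
theorem result : ∀ (n : ℕ) (f : (Fin n → Bool) → Bool) (σ : (Fin n → Bool) → (Fin n → Bool)),
    SensMatching f σ → ∀ e : ℝ, 0 ≤ e → e ≤ 1 / 2 →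
    mutualInfo f e ≤ h2 (probTrue f) - h2 e * covered σ ∧
    ((∀ x, σ x ≠ x) → mutualInfo f e ≤ 1 - h2 e) := by
  intro n f σ hσ e h0 h1
  have hlog : 0 < Real.log 2 := Real.log_pos (by norm_num)
  have hpow : (0 : ℝ) < 2 ^ n := by positivity
  have hb := entropy_sum f σ hσ e h0 (by linarith)
  have key : mutualInfo f e ≤ h2 (probTrue f) - h2 e * covered σ := by
    unfold mutualInfo h2 covered
    have hC : Real.binEntropy e / Real.log 2 *
        ((∑ x, if σ x ≠ x then (1 : ℝ) else 0) / 2 ^ n)
        ≤ (∑ y, Real.binEntropy (post f e y) / Real.log 2) / 2 ^ n := by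
      rw [← Finset.sum_div, div_div, le_div_iff₀ (by positivity)]
      have hE : Real.binEntropy e / Real.log 2 *
          ((∑ x, if σ x ≠ x then (1 : ℝ) else 0) / 2 ^ n) * (Real.log 2 * 2 ^ n)
          = Real.binEntropy e * (∑ x, if σ x ≠ x then (1 : ℝ) else 0) := by
        field_simp
      rw [hE]
      exact hb
    linarith
  refine ⟨key, fun hall => ?_⟩
  have hcov : covered σ = 1 := by
    unfold covered
    have hs : (∑ x : Fin n → Bool, if σ x ≠ x then (1 : ℝ) else 0) = 2 ^ n := by
      have hs' : ∀ x ∈ (Finset.univ : Finset (Fin n → Bool)),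
          (if σ x ≠ x then (1 : ℝ) else 0) = 1 := fun x _ => if_pos (hall x)
      rw [Finset.sum_congr rfl hs']
      simp
    rw [hs, div_self hpow.ne']
  have hH : h2 (probTrue f) ≤ 1 := by
    unfold h2
    rw [div_le_one hlog]
    exact Real.binEntropy_le_log_two
  rw [hcov, mul_one] at key
  linarith

end Vale.Agent.Results.P322.MatchingBound
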