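import Vale.Agent.Results.P322.MatchingRigidity

/-!
# P322 (Courtade-Kumar conjecture): the matching class with its equality case, plain form

`X` is uniform on `{0,1}^n` (encoded as `Fin n → Bool`), `Y` is the output of `n` independent
binary symmetric channels with crossover probability `e`.  The statement of the hand-in
`MatchingRigidity`, with every notion written out: for every Boolean `f` whose sensitive edges
contain a perfect matching `{x, σ x}` of the cube and every `0 < e < 1/2`,
`I(f(X);Y) ≤ 1 - h(e)`, with equality if and only if `f` is a coordinate function or the negation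
of one.  Here `h` is the binary entropy in bits, `post y = P(f(X) = true | Y = y)` and
`I = H(f(X)) - H(f(X)|Y)`.
-/

namespace Vale.Agent.Results.P322.MatchingPlain

theorem result : ∀ (n : ℕ) (f : (Fin n → Bool) → Bool) (σ : (Fin n → Bool) → (Fin n → Bool)),
    (∀ x, σ (σ x) = x) →
    (∀ x, (∃ i, σ x = Function.update x i (!x i)) ∧ f (σ x) ≠ f x) →
    ∀ e : ℝ, 0 < e → e < 1 / 2 →
    let h : ℝ → ℝ := fun p => Real.binEntropy p / Real.log 2
    let post : (Fin n → Bool) → ℝ := fun y =>
      ∑ x, if f x = true then (∏ i, if x i = y i then 1 - e else e) else 0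
    let I : ℝ := h ((∑ x, if f x = true then (1 : ℝ) else 0) / 2 ^ n) - (∑ y, h (post y)) / 2 ^ n
    I ≤ 1 - h e ∧ (I = 1 - h e ↔ ∃ i : Fin n, (∀ x, f x = x i) ∨ (∀ x, f x = !x i)) := by
  intro n f σ hinv hmatch e he0 he1 h post I
  exact Vale.Agent.Results.P322.MatchingRigidity.result n f σ ⟨hinv, hmatch⟩ e he0 he1

end Vale.Agent.Results.P322.MatchingPlain
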