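import Mathlib

/-!
# P322 (Courtade-Kumar conjecture): the inequality with its equality case on the matching class

`X` is uniform on `{0,1}^n` (encoded as `Fin n → Bool`), `Y` is the output of `n` independent
binary symmetric channels with crossover probability `e`.  A *sensitive edge* of a Boolean
function `f` is a pair of inputs differing in exactly one coordinate on which `f` takes different
values.  For every `f` whose sensitive edges contain a perfect matching of the cube and every
`0 < e < 1/2` we prove the Courtade-Kumar inequality `I(f(X);Y) ≤ 1 - h2(e)`, and that equality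
holds if and only if `f` is a coordinate function or the negation of one.
-/

namespace Vale.Agent.Results.P322.MatchingRigidity

open Finset

/-- `chan e x y` is the probability that `n` independent binary symmetric channels with
crossover probability `e` turn the input `x` into the output `y`.  For `X` uniform it is also
the conditional probability `P(X = x | Y = y)`. -/
def chan {n : ℕ} (e : ℝ) (x y : Fin n → Bool) : ℝ :=
  ∏ i, if x i = y i then 1 - e else e

/-- `post f e y` is the conditional probability `P(f(X) = true | Y = y)`. -/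
def post {n : ℕ} (f : (Fin n → Bool) → Bool) (e : ℝ) (y : Fin n → Bool) : ℝ :=
  ∑ x, if f x = true then chan e x y else 0

/-- The binary entropy function in bits. -/
noncomputable def h2 (p : ℝ) : ℝ := Real.binEntropy p / Real.log 2

/-- The probability `P(f(X) = true)` for `X` uniform on `{0,1}^n`. -/
noncomputable def probTrue {n : ℕ} (f : (Fin n → Bool) → Bool) : ℝ :=
  (∑ x, if f x = true then (1 : ℝ) else 0) / 2 ^ n

/-- The mutual information `I(f(X);Y) = H(f(X)) - H(f(X)|Y)` in bits, where
`H(f(X)) = h2(P(f(X) = true))` and `H(f(X)|Y)` is the average over the `2^n` equally likely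
outputs `y` of `h2(P(f(X) = true | Y = y))`. -/
noncomputable def mutualInfo {n : ℕ} (f : (Fin n → Bool) → Bool) (e : ℝ) : ℝ :=
  h2 (probTrue f) - (∑ y, h2 (post f e y)) / 2 ^ n

/-- `σ` is a perfect matching of the cube by sensitive edges of `f`: `σ` is an involution of
the cube, and every point `x` is moved by `σ` to a neighbour (exactly one coordinate flipped) at
which `f` takes the other value.  The matched pairs are the pairs `{x, σ x}`. -/
def PerfectSensMatching {n : ℕ} (f : (Fin n → Bool) → Bool)
    (σ : (Fin n → Bool) → (Fin n → Bool)) : Prop :=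
  (∀ x, σ (σ x) = x) ∧
    ∀ x, (∃ i, σ x = Function.update x i (!x i)) ∧ f (σ x) ≠ f x

lemma chan_insertNth {n : ℕ} (e : ℝ) (i : Fin (n + 1)) (b : Bool) (x : Fin n → Bool)
    (y : Fin (n + 1) → Bool) :
    chan e (i.insertNth b x) y = (if b = y i then 1 - e else e) * chan e x (i.removeNth y) := by
  unfold chan
  rw [Fin.prod_univ_succAbove _ i]
  simp only [Fin.insertNth_apply_same, Fin.insertNth_apply_succAbove, Fin.removeNth]
  rfl

lemma sum_insertNth {n : ℕ} (i : Fin (n + 1)) (F : (Fin (n + 1) → Bool) → ℝ) :
    ∑ x, F x = ∑ b : Bool, ∑ x' : Fin n → Bool, F (i.insertNth b x') := by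
  rw [← (Fin.insertNthEquiv (fun _ => Bool) i).sum_comp, Fintype.sum_prod_type]
  rfl

lemma chan_sum {n : ℕ} (e : ℝ) (y : Fin n → Bool) : ∑ x, chan e x y = 1 := by
  induction n with
  | zero => simp [chan]
  | succ n ih =>
    rw [sum_insertNth 0]
    simp only [chan_insertNth, ← Finset.mul_sum, ih, mul_one, Fintype.sum_bool]
    cases y 0 <;> simp

lemma chan_pos {n : ℕ} (e : ℝ) (h0 : 0 < e) (h1 : e < 1) (x y : Fin n → Bool) :
    0 < chan e x y := by
  unfold chan
  apply Finset.prod_pos
  intro i _
  split_ifs <;> linarith

/-- Splitting off the factor of coordinate `i`. -/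
lemma chan_split {n : ℕ} (e : ℝ) (x y : Fin n → Bool) (i : Fin n) :
    chan e x y = (if x i = y i then 1 - e else e) *
      ∏ j ∈ univ.erase i, (if x j = y j then 1 - e else e) := by
  unfold chan
  rw [Finset.mul_prod_erase univ (fun j => if x j = y j then 1 - e else e) (mem_univ i)]

/-- Flipping coordinate `i` of the input exchanges the two possible factors of coordinate `i`
and leaves the other factors unchanged. -/
lemma chan_flip {n : ℕ} (e : ℝ) (x y : Fin n → Bool) (i : Fin n) :
    chan e (Function.update x i (!x i)) y = (if x i = y i then e else 1 - e) *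
      ∏ j ∈ univ.erase i, (if x j = y j then 1 - e else e) := by
  rw [chan_split e _ y i]
  congr 1
  · simp only [Function.update_self]
    cases x i <;> cases y i <;> simp
  · apply Finset.prod_congr rfl
    intro j hj
    rw [Function.update_of_ne (Finset.ne_of_mem_erase hj)]

/-- The indicator of `f x = true` as a real number. -/
def ind {n : ℕ} (f : (Fin n → Bool) → Bool) (x : Fin n → Bool) : ℝ :=
  if f x = true then 1 else 0

/-- The posterior probability of `f(X) = true` given `Y = y` and given that `X` is one of the
two points of the matched pair `{x, σ x}`. -/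
noncomputable def pairPost {n : ℕ} (f : (Fin n → Bool) → Bool)
    (σ : (Fin n → Bool) → (Fin n → Bool)) (e : ℝ) (y x : Fin n → Bool) : ℝ :=
  (ind f x * chan e x y + ind f (σ x) * chan e (σ x) y) / (chan e x y + chan e (σ x) y)

lemma pairPost_inv {n : ℕ} (f : (Fin n → Bool) → Bool) (σ : (Fin n → Bool) → (Fin n → Bool))
    (hinv : ∀ x, σ (σ x) = x) (e : ℝ) (y x : Fin n → Bool) :
    pairPost f σ e y (σ x) = pairPost f σ e y x := by
  unfold pairPost
  rw [hinv x, add_comm (ind f (σ x) * chan e (σ x) y), add_comm (chan e (σ x) y)]

/-- The posterior of `f(X)` given `Y = y` is the mixture of the pair posteriors. -/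
lemma post_mix {n : ℕ} (f : (Fin n → Bool) → Bool) (σ : (Fin n → Bool) → (Fin n → Bool))
    (hinv : ∀ x, σ (σ x) = x) (e : ℝ) (h0 : 0 < e) (h1 : e < 1) (y : Fin n → Bool) :
    post f e y = ∑ x, chan e x y • pairPost f σ e y x := by
  have hpair : ∀ x, chan e x y * pairPost f σ e y x + chan e (σ x) y * pairPost f σ e y (σ x)
      = ind f x * chan e x y + ind f (σ x) * chan e (σ x) y := by
    intro x
    rw [pairPost_inv f σ hinv e y x, ← add_mul]
    unfold pairPost
    have hD : chan e x y + chan e (σ x) y ≠ 0 :=
      (add_pos (chan_pos e h0 h1 x y) (chan_pos e h0 h1 (σ x) y)).ne'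
    rw [mul_div_cancel₀ _ hD]
  have hre : ∑ x, chan e (σ x) y * pairPost f σ e y (σ x) = ∑ x, chan e x y * pairPost f σ e y x :=
    Equiv.sum_comp (Function.Involutive.toPerm σ hinv) (fun x => chan e x y * pairPost f σ e y x)
  have hre2 : ∑ x, ind f (σ x) * chan e (σ x) y = ∑ x, ind f x * chan e x y :=
    Equiv.sum_comp (Function.Involutive.toPerm σ hinv) (fun x => ind f x * chan e x y)
  have hsum : ∑ x, (chan e x y * pairPost f σ e y x + chan e (σ x) y * pairPost f σ e y (σ x))
      = ∑ x, (ind f x * chan e x y + ind f (σ x) * chan e (σ x) y) :=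
    Finset.sum_congr rfl (fun x _ => hpair x)
  rw [Finset.sum_add_distrib, Finset.sum_add_distrib, hre, hre2] at hsum
  have hpost : post f e y = ∑ x, ind f x * chan e x y := by
    unfold post ind
    apply Finset.sum_congr rfl
    intro x _
    split_ifs <;> simp
  simp only [smul_eq_mul]
  rw [hpost]; linarith

/-- The value of the pair posterior on a sensitive edge in direction `i`. -/
lemma pairPost_val {n : ℕ} (f : (Fin n → Bool) → Bool) (σ : (Fin n → Bool) → (Fin n → Bool))
    (e : ℝ) (h0 : 0 < e) (h1 : e < 1) (y x : Fin n → Bool) (i : Fin n)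
    (hi : σ x = Function.update x i (!x i)) (hf : f (σ x) ≠ f x) :
    pairPost f σ e y x = if (f x = true ↔ x i = y i) then 1 - e else e := by
  have hcx := chan_split e x y i
  have hcs : chan e (σ x) y = (if x i = y i then e else 1 - e) *
      ∏ j ∈ univ.erase i, (if x j = y j then 1 - e else e) := by
    rw [hi]; exact chan_flip e x y i
  have hApos : 0 < ∏ j ∈ univ.erase i, (if x j = y j then 1 - e else e) := by
    apply Finset.prod_pos
    intro j _
    split_ifs <;> linarith
  set A : ℝ := ∏ j ∈ univ.erase i, (if x j = y j then 1 - e else e) with hA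
  have hfs : f (σ x) = !f x := by
    revert hf
    cases f (σ x) <;> cases f x <;> simp
  unfold pairPost ind
  rw [hcx, hcs, hfs]
  have hDen : (if x i = y i then 1 - e else e) * A + (if x i = y i then e else 1 - e) * A = A := by
    split_ifs <;> ring
  rw [hDen]
  have hA0 : A ≠ 0 := hApos.ne'
  by_cases hxy : x i = y i
  · cases hfx : f x
    · simp only [hxy, if_true, Bool.false_eq_true, if_false, Bool.not_false, false_iff,
        not_true_eq_false, zero_mul, one_mul, zero_add]
      field_simp
    · simp only [hxy, if_true, Bool.not_true, Bool.false_eq_true, if_false,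
        zero_mul, one_mul, add_zero]
      field_simp
  · cases hfx : f x
    · simp only [hxy, if_false, Bool.false_eq_true, Bool.not_false, if_true,
        zero_mul, one_mul, zero_add]
      field_simp
    · simp only [hxy, if_false, Bool.not_true, Bool.false_eq_true, if_true, true_iff,
        zero_mul, one_mul, add_zero]
      field_simp

/-- Pointwise bound with its equality case: the entropy of the posterior of `f(X)` given
`Y = y` is at least the noise entropy, and equality forces all pair posteriors to coincide. -/
lemma entropy_pointwise {n : ℕ} (f : (Fin n → Bool) → Bool)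
    (σ : (Fin n → Bool) → (Fin n → Bool)) (hσ : PerfectSensMatching f σ) (e : ℝ) (h0 : 0 < e)
    (h1 : e < 1) (y : Fin n → Bool) :
    Real.binEntropy e ≤ Real.binEntropy (post f e y) ∧
    (Real.binEntropy (post f e y) = Real.binEntropy e →
      ∀ x x', pairPost f σ e y x = pairPost f σ e y x') := by
  obtain ⟨hinv, hadj⟩ := hσ
  have hval : ∀ x, pairPost f σ e y x = e ∨ pairPost f σ e y x = 1 - e := by
    intro x
    obtain ⟨⟨i, hi⟩, hf⟩ := hadj x
    rw [pairPost_val f σ e h0 h1 y x i hi hf]
    split_ifs
    · right; rfl
    · left; rfl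
  have hent : ∀ x, Real.binEntropy (pairPost f σ e y x) = Real.binEntropy e := by
    intro x
    rcases hval x with h | h
    · rw [h]
    · rw [h, Real.binEntropy_one_sub]
  have hmem : ∀ x ∈ (Finset.univ : Finset (Fin n → Bool)),
      pairPost f σ e y x ∈ Set.Icc (0 : ℝ) 1 := by
    intro x _
    rcases hval x with h | h
    · rw [h]; exact ⟨h0.le, h1.le⟩
    · rw [h]; exact ⟨by linarith, by linarith⟩
  have hsumc : ∑ x, chan e x y • Real.binEntropy (pairPost f σ e y x) = Real.binEntropy e := by
    simp only [hent, smul_eq_mul]
    rw [← Finset.sum_mul, chan_sum e y, one_mul]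
  have hJ := Real.strictConcave_binEntropy.concaveOn.le_map_sum
    (t := (Finset.univ : Finset (Fin n → Bool))) (w := fun x => chan e x y)
    (p := pairPost f σ e y)
    (fun x _ => (chan_pos e h0 h1 x y).le) (chan_sum e y) hmem
  rw [← post_mix f σ hinv e h0 h1 y, hsumc] at hJ
  refine ⟨hJ, fun heq => ?_⟩
  have hiff := Real.strictConcave_binEntropy.map_sum_eq_iff_of_pos
    (t := (Finset.univ : Finset (Fin n → Bool))) (w := fun x => chan e x y)
    (p := pairPost f σ e y)
    (fun x _ => chan_pos e h0 h1 x y) (chan_sum e y) hmem
  rw [← post_mix f σ hinv e h0 h1 y, hsumc] at hiff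
  intro x x'
  exact hiff.mp heq (mem_univ x) (mem_univ x')

/-- If all pair posteriors coincide for every output, then `f` is a coordinate function or the
negation of one. -/
lemma dictator_of_const {n : ℕ} (f : (Fin n → Bool) → Bool)
    (σ : (Fin n → Bool) → (Fin n → Bool)) (hσ : PerfectSensMatching f σ) (e : ℝ) (h0 : 0 < e)
    (h1 : e < 1 / 2)
    (hconst : ∀ y x x', pairPost f σ e y x = pairPost f σ e y x') :
    ∃ i : Fin n, (∀ x, f x = x i) ∨ (∀ x, f x = !x i) := by
  obtain ⟨hinv, hadj⟩ := hσ
  choose ι hι using fun x => (hadj x).1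
  have hval : ∀ y x, pairPost f σ e y x
      = if (f x = true ↔ x (ι x) = y (ι x)) then 1 - e else e :=
    fun y x => pairPost_val f σ e h0 (by linarith) y x (ι x) (hι x) (hadj x).2
  have hne : (1 - e : ℝ) ≠ e := by intro h; linarith
  have hT : ∀ (y x x' : Fin n → Bool), (f x = true ↔ x (ι x) = y (ι x)) ↔
      (f x' = true ↔ x' (ι x') = y (ι x')) := by
    intro y x x'
    have h := hconst y x x'
    rw [hval, hval] at h
    by_cases hp : (f x = true ↔ x (ι x) = y (ι x)) <;>
      by_cases hq : (f x' = true ↔ x' (ι x') = y (ι x'))
    · exact iff_of_true hp hq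
    · rw [if_pos hp, if_neg hq] at h; exact absurd h hne
    · rw [if_neg hp, if_pos hq] at h; exact absurd h.symm hne
    · exact iff_of_false hp hq
  have hιc : ∀ x x', ι x = ι x' := by
    intro x x'
    by_contra hne'
    have h := hT (fun j => if j = ι x then (if f x = true then x j else !x j)
        else (if f x' = true then !x' j else x' j)) x x'
    have hne'' : ¬ ι x' = ι x := fun h' => hne' h'.symm
    simp only [if_true, if_neg hne''] at h
    revert h
    cases f x <;> cases f x' <;> cases x (ι x) <;> cases x' (ι x') <;> simp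
  refine ⟨ι (fun _ => false), ?_⟩
  set i := ι (fun _ => false) with hi
  have hT' : ∀ x x', (f x = x i) ↔ (f x' = x' i) := by
    intro x x'
    have h := hT (fun _ => true) x x'
    rw [hιc x (fun _ => false), hιc x' (fun _ => false)] at h
    revert h
    cases f x <;> cases f x' <;> cases x i <;> cases x' i <;> simp
  by_cases hd : f (fun _ => false) = (fun _ => false : Fin n → Bool) i
  · left; intro x; exact (hT' (fun _ => false) x).mp hd
  · right; intro x
    have hx : ¬ f x = x i := fun h => hd ((hT' x (fun _ => false)).mp h)
    revert hx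
    cases f x <;> cases x i <;> simp

lemma post_decomp {n : ℕ} (f : (Fin (n + 1) → Bool) → Bool) (e : ℝ) (i : Fin (n + 1))
    (y : Fin (n + 1) → Bool) :
    post f e y = ∑ b : Bool, (if b = y i then 1 - e else e) *
      post (fun x => f (i.insertNth b x)) e (i.removeNth y) := by
  unfold post
  rw [sum_insertNth i]
  apply Finset.sum_congr rfl
  intro b _
  rw [Finset.mul_sum]
  apply Finset.sum_congr rfl
  intro x _
  rw [chan_insertNth]
  split_ifs <;> simp

/-- For a function `f = g(x_i)` of one coordinate the posterior of `f(X)` given `Y = y` has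
entropy `binEntropy e` when `g` is the identity or the negation. -/
lemma post_literal {n : ℕ} (f : (Fin n → Bool) → Bool) (i : Fin n) (c : Bool)
    (hf : ∀ x, f x = xor (x i) c) (e : ℝ) (y : Fin n → Bool) :
    post f e y = e ∨ post f e y = 1 - e := by
  cases n with
  | zero => exact i.elim0
  | succ m =>
    rw [post_decomp f e i y, Fintype.sum_bool]
    have hpost : ∀ b : Bool, post (fun x => f (i.insertNth b x)) e (i.removeNth y)
        = if xor b c = true then 1 else 0 := by
      intro b
      unfold post
      simp only [hf, Fin.insertNth_apply_same]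
      split_ifs with h
      · exact chan_sum e _
      · simp
    rw [hpost true, hpost false]
    cases c <;> cases y i <;> simp

lemma probTrue_literal {n : ℕ} (f : (Fin n → Bool) → Bool) (i : Fin n) (c : Bool)
    (hf : ∀ x, f x = xor (x i) c) : probTrue f = 2⁻¹ := by
  cases n with
  | zero => exact i.elim0
  | succ m =>
    unfold probTrue
    rw [sum_insertNth i, Fintype.sum_bool]
    simp only [hf, Fin.insertNth_apply_same]
    have hpow : (2 : ℝ) ^ (m + 1) = 2 * 2 ^ m := by ring
    have hcard : (∑ _x : Fin m → Bool, (1 : ℝ)) = 2 ^ m := by simp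
    have hm : (2 : ℝ) ^ m ≠ 0 := by positivity
    cases c <;> simp [hpow] <;> field_simp

/-- **The Courtade-Kumar inequality with its equality case on the matching class.**  For every
`n`, every Boolean function `f` on `{0,1}^n` whose sensitive edges contain a perfect matching
`σ` of the cube, and every crossover probability `0 < e < 1/2`:
`I(f(X);Y) ≤ 1 - h2(e)`, with equality if and only if `f` is a coordinate function `x ↦ x_i`
or its negation. -/
theorem result : ∀ (n : ℕ) (f : (Fin n → Bool) → Bool) (σ : (Fin n → Bool) → (Fin n → Bool)),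
    PerfectSensMatching f σ → ∀ e : ℝ, 0 < e → e < 1 / 2 →
    mutualInfo f e ≤ 1 - h2 e ∧
    (mutualInfo f e = 1 - h2 e ↔ ∃ i : Fin n, (∀ x, f x = x i) ∨ (∀ x, f x = !x i)) := by
  intro n f σ hσ e h0 h1
  have h1' : e < 1 := by linarith
  have hlog : 0 < Real.log 2 := Real.log_pos (by norm_num)
  have hpow : (0 : ℝ) < 2 ^ n := by positivity
  have hpt := fun y => entropy_pointwise f σ hσ e h0 h1' y
  have hcard : (∑ _y : Fin n → Bool, Real.binEntropy e) = 2 ^ n * Real.binEntropy e := by
    simp
  have hsum : 2 ^ n * Real.binEntropy e ≤ ∑ y, Real.binEntropy (post f e y) := by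
    rw [← hcard]
    exact Finset.sum_le_sum (fun y _ => (hpt y).1)
  have hH : h2 (probTrue f) ≤ 1 := by
    unfold h2
    rw [div_le_one hlog]
    exact Real.binEntropy_le_log_two
  have havg : (∑ y, h2 (post f e y)) / 2 ^ n
      = (∑ y, Real.binEntropy (post f e y)) / (2 ^ n * Real.log 2) := by
    unfold h2
    rw [← Finset.sum_div, div_div, mul_comm]
  have hC : h2 e ≤ (∑ y, h2 (post f e y)) / 2 ^ n := by
    rw [havg, le_div_iff₀ (by positivity)]
    unfold h2
    have hE : Real.binEntropy e / Real.log 2 * (2 ^ n * Real.log 2)
        = 2 ^ n * Real.binEntropy e := by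
      field_simp
    rw [hE]
    exact hsum
  have hineq : mutualInfo f e ≤ 1 - h2 e := by
    unfold mutualInfo
    linarith
  refine ⟨hineq, ⟨fun heq => ?_, fun hdict => ?_⟩⟩
  · -- equality forces a dictator
    have hC' : (∑ y, h2 (post f e y)) / 2 ^ n = h2 e := by
      unfold mutualInfo at heq
      linarith
    have hsum' : ∑ y, Real.binEntropy (post f e y) = 2 ^ n * Real.binEntropy e := by
      rw [havg, div_eq_iff (by positivity)] at hC'
      rw [hC']
      unfold h2
      field_simp
    have hzero : ∑ y, (Real.binEntropy (post f e y) - Real.binEntropy e) = 0 := by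
      rw [Finset.sum_sub_distrib, hcard, hsum', sub_self]
    have hall := (Finset.sum_eq_zero_iff_of_nonneg
      (fun y _ => sub_nonneg.mpr (hpt y).1)).mp hzero
    have hconst : ∀ y x x', pairPost f σ e y x = pairPost f σ e y x' := by
      intro y
      exact (hpt y).2 (by have := hall y (mem_univ y); linarith)
    exact dictator_of_const f σ hσ e h0 h1 hconst
  · -- dictators attain equality
    obtain ⟨i, hi⟩ := hdict
    have hlit : ∃ c : Bool, ∀ x, f x = xor (x i) c := by
      rcases hi with h | h
      · exact ⟨false, fun x => by rw [h x]; simp⟩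
      · exact ⟨true, fun x => by rw [h x]; simp⟩
    obtain ⟨c, hc⟩ := hlit
    have hpost : ∀ y, h2 (post f e y) = h2 e := by
      intro y
      unfold h2
      rcases post_literal f i c hc e y with h | h
      · rw [h]
      · rw [h, Real.binEntropy_one_sub]
    have hprob : h2 (probTrue f) = 1 := by
      rw [probTrue_literal f i c hc]
      unfold h2
      rw [Real.binEntropy_two_inv, div_self hlog.ne']
    unfold mutualInfo
    rw [hprob]
    simp only [hpost]
    have hcard2 : (∑ _y : Fin n → Bool, h2 e) = 2 ^ n * h2 e := by simp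
    rw [hcard2, mul_div_cancel_left₀ _ hpow.ne']

end Vale.Agent.Results.P322.MatchingRigidity
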